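import Vale.Agent.P105.H892.Final

open MeasureTheory

namespace Vale.Agent.Results.P105.DimensionDrop

open Vale.Agent.P105 Vale.Agent.P105.Salem

/-- **Dimension drop for Salem numbers of degree four.**
(1) If `1 / lam` is a Salem number of degree four, then the Bernoulli convolution with parameter
`lam` is singular; moreover its Garsia entropy is smaller than `log (1 / lam)` and its Hausdorff
dimension is smaller than one.
(2) In particular there is `lam ∈ (1 / 2, 1)`, namely the root `0.5806...` of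
`x ^ 4 - x ^ 3 - x ^ 2 - x + 1`, such that `1 / lam` is not a Pisot number and the Bernoulli
convolution with parameter `lam` is singular, of Hausdorff dimension smaller than one.
(3) The same for every self-similar measure with contraction ratio `lam` and digits in an
arithmetic progression: the law of `∑ D (ω n) lam ^ n`, the `ω n` being i.i.d. with an arbitrary
law on a finite set, is singular, of Hausdorff dimension smaller than one. -/
theorem result :
    (∀ lam : ℝ, 0 < lam → IsSalem lam⁻¹ → (minpoly ℚ lam⁻¹).natDegree = 4 →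
      bernConv lam ⟂ₘ volume ∧ garsiaEntropy lam < Real.log lam⁻¹ ∧ hdim (bernConv lam) < 1) ∧
    (∃ lam : ℝ, 1 / 2 < lam ∧ lam < 1 ∧ lam ^ 4 - lam ^ 3 - lam ^ 2 - lam + 1 = 0 ∧
      IsSalem lam⁻¹ ∧ ¬ IsPisot lam⁻¹ ∧ bernConv lam ⟂ₘ volume ∧ hdim (bernConv lam) < 1) ∧
    ∀ lam : ℝ, 0 < lam → IsSalem lam⁻¹ → (minpoly ℚ lam⁻¹).natDegree = 4 →
      ∀ (ι : Type) [Fintype ι] [MeasurableSpace ι] [MeasurableSingletonClass ι] (P : Measure ι)
        [IsProbabilityMeasure P] (D : ι → ℝ) (s t : ℝ) (d : ι → ℤ), (∀ i, D i = s + t * d i) →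
        (Measure.infinitePi (fun _ : ℕ => P)).map (fun ω => ∑' n : ℕ, D (ω n) * lam ^ n) ⟂ₘ
            volume ∧
          hdim ((Measure.infinitePi (fun _ : ℕ => P)).map
            (fun ω => ∑' n : ℕ, D (ω n) * lam ^ n)) < 1 := by
  refine ⟨fun lam h0 hS h4 => ?_, ?_, fun lam h0 hS h4 ι _ _ _ P _ D s t d hD => ?_⟩
  · obtain ⟨A, hA, h1, hd⟩ := H892.bernConv_dim h0 hS h4
    exact ⟨main.1 lam h0 hS h4, H892.garsia_lt h0 hS h4, H892.hdim_lt_one hA h1 hd⟩
  · obtain ⟨b, hb1, hb2, hroot, hS, h4, hP⟩ := exists_example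
    have hb0 : 0 < b := by linarith
    have hS' : IsSalem b⁻¹⁻¹ := by rwa [inv_inv]
    have h4' : (minpoly ℚ b⁻¹⁻¹).natDegree = 4 := by rwa [inv_inv]
    obtain ⟨A, hA, h1, hd⟩ := H892.bernConv_dim (lam := b⁻¹) (by positivity) hS' h4'
    refine ⟨b⁻¹, ?_, inv_lt_one_of_one_lt₀ hb1, ?_, hS', by rwa [inv_inv],
      main.1 b⁻¹ (by positivity) hS' h4', H892.hdim_lt_one hA h1 hd⟩
    · rw [one_div]
      exact inv_strictAnti₀ hb0 hb2
    · have : b⁻¹ ^ 4 - b⁻¹ ^ 3 - b⁻¹ ^ 2 - b⁻¹ + 1 =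
          (b ^ 4 - b ^ 3 - b ^ 2 - b + 1) / b ^ 4 := by
        field_simp
        ring
      rw [this, hroot, zero_div]
  · obtain ⟨A, hA, h1, hd⟩ := Dig.digits_dim h0 hS h4 P D s t d hD
    have : IsProbabilityMeasure ((Measure.infinitePi (fun _ : ℕ => P)).map
        (fun ω => ∑' n : ℕ, D (ω n) * lam ^ n)) := by
      refine Measure.isProbabilityMeasure_map ?_
      by_contra hne
      rw [Measure.map_of_not_aemeasurable hne] at h1
      simp at h1
    exact ⟨Dig.singular_of_dim hA h1 hd, H892.hdim_lt_one hA h1 hd⟩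

end Vale.Agent.Results.P105.DimensionDrop
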