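import Vale.Agent.P105.R892.Lp
import Vale.Agent.P105.R892.Raj

open MeasureTheory Filter Topology

namespace Vale.Agent.Results.P105.RajchmanSingular

open Vale.Agent.P105 Vale.Agent.P105.Salem

/-- **Bernoulli convolutions of Salem numbers of degree four are Rajchman measures all of whose
convolution powers are singular.**
(1) Let `1 / lam` be a Salem number of degree four, `ν` the Bernoulli convolution with parameter
`lam` and `φ` its characteristic function (Fourier transform). Then: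
(a) `ν` is singular;
(b) `φ` tends to zero at infinity;
(c) nevertheless every convolution power of `ν` (the law of the sum of `k` independent variables
of law `ν`) is singular, and is carried by a Borel set of Hausdorff dimension less than one;
(d) `φ` is in no `L ^ p`, `0 < p < ∞`;
(e) `φ` has no power decay: `φ(ξ)` is not `O(ξ ^ (-a))` at infinity, for any `a > 0`.
(2) This applies to the root `lam = 0.5806...` of `x ^ 4 - x ^ 3 - x ^ 2 - x + 1`, for which
`1 / lam` is not a Pisot number. -/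
theorem result :
    (∀ lam : ℝ, 0 < lam → IsSalem lam⁻¹ → (minpoly ℚ lam⁻¹).natDegree = 4 →
      bernConv lam ⟂ₘ volume ∧
      Tendsto (charFun (bernConv lam)) (cocompact ℝ) (𝓝 0) ∧
      (∀ k : ℕ,
        (Measure.pi fun _ : Fin k => bernConv lam).map (fun x => ∑ i, x i) ⟂ₘ volume ∧
        hdim ((Measure.pi fun _ : Fin k => bernConv lam).map (fun x => ∑ i, x i)) < 1) ∧
      (∀ p : ℝ, 0 < p → ¬ Integrable (fun ξ : ℝ => ‖charFun (bernConv lam) ξ‖ ^ p) volume) ∧
      ∀ a : ℝ, 0 < a → ∀ M T : ℝ, ∃ ξ : ℝ, T ≤ ξ ∧ 0 < ξ ∧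
        M * ξ ^ (-a) < ‖charFun (bernConv lam) ξ‖) ∧
    ∃ lam : ℝ, 1 / 2 < lam ∧ lam < 1 ∧ lam ^ 4 - lam ^ 3 - lam ^ 2 - lam + 1 = 0 ∧
      IsSalem lam⁻¹ ∧ (minpoly ℚ lam⁻¹).natDegree = 4 ∧ ¬ IsPisot lam⁻¹ ∧
      bernConv lam ⟂ₘ volume := by
  refine ⟨fun lam h0 hS h4 => ?_, ?_⟩
  · have h1 : lam < 1 := (one_lt_inv₀ h0).1 hS.1
    refine ⟨main.1 lam h0 hS h4, ?_, fun k => ⟨R892.conv_singular h0 hS h4 k,
      R892.conv_hdim h0 hS h4 k⟩, R892.not_Lp h0 hS h4, fun a ha M T => ?_⟩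
    · refine R892.charFun_tendsto h0 h1 ?_
      have := R892.nuHat_tendsto_zero hS h4
      rwa [inv_inv] at this
    · obtain ⟨ξ, h2, h3, h4⟩ := R892.no_decay hS h4 ha M T
      rw [inv_inv] at h4
      refine ⟨ξ, h2, h3, ?_⟩
      rwa [R892.norm_charFun h0 h1]
  · obtain ⟨b, hb1, hb2, hroot, hS, h4, hP⟩ := exists_example
    have hb0 : 0 < b := by linarith
    have hS' : IsSalem b⁻¹⁻¹ := by rwa [inv_inv]
    have h4' : (minpoly ℚ b⁻¹⁻¹).natDegree = 4 := by rwa [inv_inv]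
    refine ⟨b⁻¹, ?_, inv_lt_one_of_one_lt₀ hb1, ?_, hS', h4', by rwa [inv_inv],
      main.1 b⁻¹ (by positivity) hS' h4'⟩
    · rw [one_div]
      exact inv_strictAnti₀ hb0 hb2
    · have : b⁻¹ ^ 4 - b⁻¹ ^ 3 - b⁻¹ ^ 2 - b⁻¹ + 1 =
          (b ^ 4 - b ^ 3 - b ^ 2 - b + 1) / b ^ 4 := by
        field_simp
        ring
      rw [this, hroot, zero_div]

end Vale.Agent.Results.P105.RajchmanSingular
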